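import Vale.Agent.P235.H141.Star.Core
import Vale.Agent.P235.H206.Final

/-!
# P235, star sums: [B] the piece with few centres
-/

set_option autoImplicit false

namespace Vale.Agent.P235.H141.Star

open Vale.Agent.P235

/-- `c₁ ≤ C` for the metrics generated by `G` -/
theorem emb_of_gen {V : Type} [Finite V] {G : SimpleGraph V} {C : ℝ} (hC : DistortionLE G C)
    (hc : G.Connected) {ρ : V → V → ℝ} (hρ : IsMet ρ) (hG : Gen G ρ) :
    ∃ f : V → V → ℝ, IsL1 f ∧ (∀ x y, ρ x y ≤ f x y) ∧ ∀ x y, f x y ≤ C * ρ x y := by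
  have hℓ : ∀ e ∈ G.edgeSet, 0 < lenOf ρ hρ.symm e := by
    intro e
    induction e using Sym2.ind with
    | _ u v =>
      intro he
      exact hρ.pos u v (SimpleGraph.Adj.ne he)
  have e := hG.eq_pathDist hρ hc
  obtain ⟨f, hf, h1, h2, -⟩ := (hC _ hℓ).toL1S
  rw [e] at h1 h2
  exact ⟨f, hf.isL1, h1, h2⟩

/-- the map in the pair of metrics -/
theorem piece_core {V : Type} [Finite V] {G E : SimpleGraph V} {C : ℝ} (hC : 1 ≤ C)
    (hc : G.Connected) (hDi : DistortionLE G C) (hEG : E ≤ G) {A : Finset V}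
    (hA : ∀ u v, E.Adj u v → u ∈ A ∨ v ∈ A) {d d' : V → V → ℝ} (hP : Pair G E (3 * C) d d')
    {s t : V} (hs : s ∈ A) (hst : E.Adj s t) {D : ℝ} (hD : 0 < D) (hD' : D ≤ d' s t) :
    ∃ F : V → V → ℝ, IsL1 F ∧ F s t = D ∧
      (∀ x y, short d' s t D x y ≤
        3 * C * (576 * ((Nat.log 2 A.card + 1 : ℕ) : ℝ) * F x y)) ∧
      ∀ x y, F x y ≤ short d' s t D x y := by
  have hD2 : D ≤ d s t := by rw [← hP.eq s t hst]; exact hD'
  have hρM : IsMet (short d s t D) := short_isMet hP.met hD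
  have hρG : Gen G (short d s t D) := short_gen hP.met hP.gen (hEG hst)
  have hρst : short d s t D s t = D := short_st hP.met hD hD2
  obtain ⟨f, hf, h1, h2⟩ := emb_of_gen hDi hc hρM hρG
  obtain ⟨F, hF, hFst, hFA, hFu, hFl⟩ := star_core hC hρM hf h1 h2 A (t := t) hs
  rw [hρst] at hFst
  have hle : ∀ x y, F x y ≤ d' x y := by
    refine hF.le_of_gen hP.gen' fun u v huv => ?_
    rcases huv.2 with h | h
    · rcases hA u v h with hu | hv
      · exact (hFA u hu v).trans ((short_le _ _ _ _ _ _).trans (hP.le u v))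
      · rw [hF.symm u v, hP.met'.symm u v]
        exact (hFA v hv u).trans ((short_le _ _ _ _ _ _).trans (hP.le v u))
    · refine (hFu u v).trans (le_trans ?_ h.1)
      exact mul_le_mul_of_nonneg_left (short_le _ _ _ _ _ _) (by linarith)
  refine ⟨F, hF, hFst, fun x y => ?_, fun x y => ?_⟩
  · have h3 : short d' s t D x y ≤ 3 * C * short d s t D x y := by
      have h0 : (1 : ℝ) ≤ 3 * C := by linarith
      have h0' : (0 : ℝ) ≤ 3 * C := by linarith
      have hDD : D ≤ 3 * C * D := le_mul_of_one_le_left hD.le h0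
      unfold short
      rw [mul_min_of_nonneg _ _ h0', mul_min_of_nonneg _ _ h0']
      refine min_le_min (hP.le' x y) (min_le_min ?_ ?_)
      · have e1 := hP.le' x s
        have e2 := hP.le' t y
        linarith
      · have e1 := hP.le' x t
        have e2 := hP.le' s y
        linarith
    exact h3.trans (mul_le_mul_of_nonneg_left (hFl x y) (by linarith))
  · unfold short
    refine le_min (hle x y) (le_min ?_ ?_)
    · have e1 := hF.tri x s y
      have e2 := hF.tri s t y
      have e3 := hle x s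
      have e4 := hle t y
      linarith
    · have e1 := hF.tri x t y
      have e2 := hF.tri t s y
      have e3 := hle x t
      have e4 := hle s y
      rw [hF.symm t s] at e2
      linarith

theorem short_comm {V : Type} {d : V → V → ℝ} (s t : V) (D : ℝ) (x y : V) :
    short d s t D x y = short d t s D x y := by
  unfold short
  rw [min_comm (d x s + D + d t y)]

/-- **[B]** -/
theorem starStmt : StarStmt := by
  have hl2 : 0 < Real.log 2 := Real.log_pos (by norm_num)
  refine ⟨3 * 576 * (2 / Real.log 2) + 1, ?_, fun C t hC ht V _ G E hc hEG hDi A hAc hA => ?_⟩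
  · have : 0 ≤ 3 * 576 * (2 / Real.log 2) := by positivity
    linarith
  obtain ⟨K, hK⟩ : ∃ K, K = 3 * 576 * (2 / Real.log 2) + 1 := ⟨_, rfl⟩
  rw [← hK]
  intro d d' hP s t' hst D hD hD'
  have hlogt : Real.log 2 ≤ Real.log ((t : ℝ) + 2) :=
    Real.log_le_log (by norm_num) (by have : (0 : ℝ) ≤ t := Nat.cast_nonneg t; linarith)
  have hlpos : 0 < Real.log ((t : ℝ) + 2) := hl2.trans_le hlogt
  have hK0 : 0 < K := by rw [hK]; positivity
  -- the logarithm
  have hm : ((Nat.log 2 A.card + 1 : ℕ) : ℝ) ≤ 2 / Real.log 2 * Real.log ((t : ℝ) + 2) := by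
    have h1 : (2 : ℝ) ^ (Nat.log 2 A.card) ≤ (t : ℝ) + 2 := by
      rcases Nat.eq_zero_or_pos A.card with h0 | h0
      · rw [h0]
        simp only [Nat.log_zero_right, pow_zero]
        have : (0 : ℝ) ≤ t := Nat.cast_nonneg t
        linarith
      · have h2 : 2 ^ (Nat.log 2 A.card) ≤ A.card := Nat.pow_log_le_self 2 h0.ne'
        have h3 : (2 : ℝ) ^ (Nat.log 2 A.card) ≤ (t : ℝ) := by exact_mod_cast h2.trans hAc
        linarith
    have h4 : (Nat.log 2 A.card : ℝ) * Real.log 2 ≤ Real.log ((t : ℝ) + 2) := by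
      rw [← Real.log_pow]
      exact Real.log_le_log (by positivity) h1
    have h5 : (((Nat.log 2 A.card + 1 : ℕ) : ℝ)) * Real.log 2 ≤ 2 * Real.log ((t : ℝ) + 2) := by
      push_cast
      linarith
    rw [div_mul_eq_mul_div, le_div_iff₀ hl2]
    exact h5
  have fin : ∀ (F : V → V → ℝ), IsL1 F → ∀ x y, ∀ z : ℝ,
      z ≤ 3 * C * (576 * ((Nat.log 2 A.card + 1 : ℕ) : ℝ) * F x y) →
      1 / (K * C * Real.log ((t : ℝ) + 2)) * z ≤ F x y := by
    intro F hF x y z hz
    have hFn := hF.nonneg x y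
    have hC0 : 0 < C := by linarith
    rw [one_div, inv_mul_le_iff₀ (by positivity)]
    refine hz.trans ?_
    have h6 : 3 * 576 * ((Nat.log 2 A.card + 1 : ℕ) : ℝ) ≤ K * Real.log ((t : ℝ) + 2) := by
      have h7 := mul_le_mul_of_nonneg_left hm (by norm_num : (0 : ℝ) ≤ 3 * 576)
      rw [hK]
      linarith
    have h8 := mul_le_mul_of_nonneg_right h6 (mul_nonneg hC0.le hFn)
    linarith
  rcases hA s t' hst with hs | ht'
  · obtain ⟨F, hF, h1, h2, h3⟩ := piece_core hC hc hDi hEG hA hP hs hst hD hD'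
    exact ⟨F, hF, h1, fun x y => fin F hF x y _ (h2 x y), h3⟩
  · have hD2 : D ≤ d' t' s := by rw [hP.met'.symm]; exact hD'
    obtain ⟨F, hF, h1, h2, h3⟩ := piece_core hC hc hDi hEG hA hP ht' hst.symm hD hD2
    refine ⟨F, hF, by rw [hF.symm]; exact h1, fun x y => fin F hF x y _ ?_, fun x y => ?_⟩
    · rw [short_comm]; exact h2 x y
    · rw [short_comm]; exact h3 x y

/-- a piece with edge-exact maps, any marks -/
theorem pieceOK_of_edgeExact {V : Type} [Finite V] {G E : SimpleGraph V} {M c : ℝ}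
    (hEG : E ≤ G) (h : EdgeExact G c) : PieceOK M c G E := by
  intro d d' hP s t hst D hD hD'
  have hG' : Gen G d' := by
    intro f hf
    exact hP.gen' f fun u v huv => hf u v huv.1
  obtain ⟨F, h1, h2, h3, h4⟩ := h (short d' s t D) (short_isMet hP.met' hD)
    (short_gen hP.met' hG' (hEG hst)) s t (hEG hst)
  exact ⟨F, h1, by rw [h2, short_st hP.met' hD hD'], h3, h4⟩

theorem PieceOK.mono {V : Type} {G E : SimpleGraph V} {M c c' : ℝ} (h : PieceOK M c G E)
    (hcc : c' ≤ c) : PieceOK M c' G E := by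
  intro d d' hP s t hst D hD hD'
  obtain ⟨F, h1, h2, h3, h4⟩ := h d d' hP s t hst D hD hD'
  refine ⟨F, h1, h2, fun x y => ?_, h4⟩
  refine (mul_le_mul_of_nonneg_right hcc ?_).trans (h3 x y)
  exact (short_isMet hP.met' hD).nonneg x y

end Vale.Agent.P235.H141.Star
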