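import Vale.Agent.P235.H141.Star.Fam
import Vale.Agent.P235.H873.LineApex

/-!
# P235, star sums: the map of a piece, exact at one edge from a centre
-/

set_option autoImplicit false

namespace Vale.Agent.P235.H141.Star

open Vale.Agent.P235

theorem prof_zero : prof 0 = 0 := by
  unfold prof
  norm_num

theorem prof_le_two_mul {t : ℝ} (ht : 0 ≤ t) : prof t ≤ 2 * t := by
  unfold prof
  refine max_le (by linarith) ((min_le_left _ _).trans (by linarith))

/-- the map with all scales: bounded by the distance `r` to the centres -/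
theorem fam_all {V : Type} [Finite V] {ρ f : V → V → ℝ} {C : ℝ} (hC : 1 ≤ C) (hρ : IsMet ρ)
    (hf : IsL1 f) (h1 : ∀ x y, ρ x y ≤ f x y) (h2 : ∀ x y, f x y ≤ C * ρ x y) (r : V → ℝ)
    (hr0 : ∀ x, 0 ≤ r x) (hr : ∀ x y, |r x - r y| ≤ ρ x y) :
    ∃ (κ : Type) (_ : Fintype κ) (q : κ → ℝ) (g : κ → V → ℝ), (∀ k, 0 ≤ q k) ∧ ∑ k, q k = 1 ∧
      (∀ k x, |g k x| ≤ r x) ∧
      (∀ x y, min (ρ x y) (r x + r y) / 48 - |r x - r y| / 3 ≤ ∑ k, q k * |g k x - g k y|) ∧
      ∀ x y, ∑ k, q k * |g k x - g k y| ≤ (2 * C + 2) * ρ x y := by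
  classical
  have : Fintype V := Fintype.ofFinite V
  let φ : ℤ → V → ℝ := fun j x => prof (r x / 2 ^ j) / 6
  have hφn : ∀ j x, 0 ≤ φ j x := fun j x => div_nonneg (prof_nonneg _) (by norm_num)
  have h2j : ∀ j : ℤ, (0 : ℝ) < 2 ^ j := fun j => by positivity
  have hφl : ∀ j x y, (2 : ℝ) ^ j * |φ j x - φ j y| ≤ |r x - r y| / 3 := by
    intro j x y
    have hj := h2j j
    have e : φ j x - φ j y = (prof (r x / 2 ^ j) - prof (r y / 2 ^ j)) / 6 := by
      show prof (r x / 2 ^ j) / 6 - prof (r y / 2 ^ j) / 6 = _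
      ring
    rw [e, abs_div, abs_of_pos (by norm_num : (0 : ℝ) < 6)]
    have h3 : (2 : ℝ) ^ j * |prof (r x / 2 ^ j) - prof (r y / 2 ^ j)| ≤ 2 * |r x - r y| := by
      calc (2 : ℝ) ^ j * |prof (r x / 2 ^ j) - prof (r y / 2 ^ j)|
          ≤ 2 ^ j * (2 * |r x / 2 ^ j - r y / 2 ^ j|) :=
            mul_le_mul_of_nonneg_left (prof_lip _ _) hj.le
        _ = 2 * |r x - r y| := by
            rw [← sub_div, abs_div, abs_of_pos hj]
            field_simp
    calc (2 : ℝ) ^ j * (|prof (r x / 2 ^ j) - prof (r y / 2 ^ j)| / 6)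
        = ((2 : ℝ) ^ j * |prof (r x / 2 ^ j) - prof (r y / 2 ^ j)|) / 6 := by ring
      _ ≤ _ := by linarith
  let J : Finset ℤ := Finset.univ.image fun x : V => Int.log 2 (r x)
  obtain ⟨κ, hκ, q, g, hq, hq1, hb, hlo, hup⟩ := fam_sum J (fun j x => 2 ^ j * φ j x)
    (fun j x y => φ j x * (min (f x y) (2 ^ j) / 2) - 2 ^ j * |φ j x - φ j y|)
    (fun j x y => φ j x * f x y + 2 ^ j * |φ j x - φ j y|)
    (fun j _ => fam_one hf (h2j j) (φ j) (hφn j))
  -- active scales
  let Sx : V → Finset ℤ := fun x => Finset.Icc (Int.log 2 (r x) - 1) (Int.log 2 (r x) + 1)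
  have hSx : ∀ x, (Sx x).card = 3 := by
    intro x
    show (Finset.Icc (Int.log 2 (r x) - 1) (Int.log 2 (r x) + 1)).card = 3
    rw [Int.card_Icc]
    have : Int.log 2 (r x) + 1 + 1 - (Int.log 2 (r x) - 1) = 3 := by ring
    rw [this]; rfl
  have hact : ∀ j x, φ j x ≠ 0 → j ∈ Sx x := by
    intro j x hne
    have hne' : prof (r x / 2 ^ j) ≠ 0 := by
      intro h
      apply hne
      show prof (r x / 2 ^ j) / 6 = 0
      rw [h, zero_div]
    have hpos : 0 < r x := by
      rcases (hr0 x).lt_or_eq with h | h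
      · exact h
      · exfalso
        apply hne'
        rw [← h, zero_div, prof_zero]
    exact active hpos hne'
  have hφr : ∀ j x, (2 : ℝ) ^ j * φ j x ≤ r x / 3 := by
    intro j x
    have hj := h2j j
    have h3 := prof_le_two_mul (div_nonneg (hr0 x) hj.le)
    have h4 := mul_le_mul_of_nonneg_left h3 hj.le
    have h5 : (2 : ℝ) ^ j * (2 * (r x / 2 ^ j)) = 2 * r x := by field_simp
    rw [h5] at h4
    show (2 : ℝ) ^ j * (prof (r x / 2 ^ j) / 6) ≤ r x / 3
    linarith
  have hφ3 : ∀ j x, φ j x ≤ 1 / 3 := by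
    intro j x
    have := prof_le (r x / 2 ^ j)
    show prof (r x / 2 ^ j) / 6 ≤ 1 / 3
    linarith
  refine ⟨κ, hκ, q, g, hq, hq1, ?_, ?_, ?_⟩
  · -- pointwise bound
    intro k x
    refine (hb k x).trans ?_
    have h3 : ∀ j ∈ J, (2 : ℝ) ^ j * φ j x ≤ if j ∈ Sx x then r x / 3 else 0 := by
      intro j _
      by_cases hj : j ∈ Sx x
      · rw [if_pos hj]; exact hφr j x
      · rw [if_neg hj]
        have : φ j x = 0 := by
          by_contra h
          exact hj (hact j x h)
        rw [this, mul_zero]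
    refine (Finset.sum_le_sum h3).trans ?_
    rw [Finset.sum_ite_mem, Finset.sum_const, nsmul_eq_mul]
    have h4 : ((J ∩ Sx x).card : ℝ) ≤ 3 := by
      have := Finset.card_le_card (Finset.inter_subset_right (s₁ := J) (s₂ := Sx x))
      rw [hSx] at this
      exact_mod_cast this
    have h5 : 0 ≤ r x / 3 := by linarith [hr0 x]
    calc ((J ∩ Sx x).card : ℝ) * (r x / 3) ≤ 3 * (r x / 3) := mul_le_mul_of_nonneg_right h4 h5
      _ = r x := by ring
  · -- lower bound
    have key : ∀ x y, r y ≤ r x →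
        min (ρ x y) (r x + r y) / 48 - |r x - r y| / 3 ≤ ∑ k, q k * |g k x - g k y| := by
      intro x y hle
      rcases (hr0 x).lt_or_eq with hpos | hzero
      · have hJ : Int.log 2 (r x) ∈ J := Finset.mem_image_of_mem _ (Finset.mem_univ x)
        refine le_trans ?_ (hlo _ hJ x y)
        have hj := h2j (Int.log 2 (r x))
        have hl1 : (2 : ℝ) ^ (Int.log 2 (r x)) ≤ r x := Int.zpow_log_le_self (by norm_num) hpos
        have hl2 : r x < 2 * (2 : ℝ) ^ (Int.log 2 (r x)) := by
          have := Int.lt_zpow_succ_log_self (b := 2) (by norm_num) (r x)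
          rw [zpow_add_one₀ (by norm_num)] at this
          push_cast at this
          linarith
        have hφ1 : 1 / 6 ≤ φ (Int.log 2 (r x)) x := by
          have : 1 ≤ prof (r x / 2 ^ (Int.log 2 (r x))) := by
            refine prof_ge ?_ ?_
            · rw [le_div_iff₀ hj, one_mul]; exact hl1
            · rw [div_le_iff₀ hj]; exact hl2.le
          show 1 / 6 ≤ prof (r x / 2 ^ (Int.log 2 (r x))) / 6
          linarith
        have h3 := hφl (Int.log 2 (r x)) x y
        have h6 : min (ρ x y) (r x + r y) / 4 ≤ min (f x y) (2 ^ (Int.log 2 (r x))) := by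
          refine le_min ?_ ?_
          · have h7 := min_le_left (ρ x y) (r x + r y)
            have h8 := hρ.nonneg x y
            linarith [h1 x y]
          · have h7 := min_le_right (ρ x y) (r x + r y)
            linarith
        have h7 : 0 ≤ min (f x y) (2 ^ (Int.log 2 (r x))) / 2 := by
          have : 0 ≤ min (f x y) ((2 : ℝ) ^ (Int.log 2 (r x))) :=
            le_min (hf.nonneg x y) hj.le
          linarith
        have h8 := mul_le_mul_of_nonneg_right hφ1 h7
        linarith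
      · have h3 : r y = 0 := le_antisymm (hle.trans hzero.symm.le) (hr0 y)
        have h4 : min (ρ x y) (r x + r y) ≤ 0 := by
          refine (min_le_right _ _).trans ?_
          rw [h3, ← hzero]; norm_num
        have h5 : 0 ≤ ∑ k, q k * |g k x - g k y| :=
          Finset.sum_nonneg fun k _ => mul_nonneg (hq k) (abs_nonneg _)
        linarith [abs_nonneg (r x - r y)]
    intro x y
    rcases le_total (r y) (r x) with h | h
    · exact key x y h
    · have h3 := key y x h
      rw [hρ.symm y x, add_comm (r y), abs_sub_comm (r y)] at h3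
      refine h3.trans (le_of_eq ?_)
      refine Finset.sum_congr rfl fun k _ => ?_
      rw [abs_sub_comm]
  · -- upper bound
    intro x y
    refine (hup x y).trans ?_
    have hB0 : 0 ≤ (C * ρ x y + ρ x y) / 3 := by
      have := hρ.nonneg x y
      positivity
    have hterm : ∀ j ∈ J, φ j x * f x y + 2 ^ j * |φ j x - φ j y| ≤
        if j ∈ Sx x ∪ Sx y then (C * ρ x y + ρ x y) / 3 else 0 := by
      intro j _
      by_cases hj : j ∈ Sx x ∪ Sx y
      · rw [if_pos hj]
        have h3 : φ j x * f x y ≤ 1 / 3 * (C * ρ x y) :=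
          mul_le_mul (hφ3 j x) (h2 x y) (hf.nonneg x y) (by norm_num)
        have h4 := hφl j x y
        have h5 := hr x y
        linarith
      · rw [if_neg hj]
        rw [Finset.mem_union, not_or] at hj
        have hx0 : φ j x = 0 := by
          by_contra h
          exact hj.1 (hact j x h)
        have hy0 : φ j y = 0 := by
          by_contra h
          exact hj.2 (hact j y h)
        rw [hx0, hy0]
        simp
    refine (Finset.sum_le_sum hterm).trans ?_
    rw [Finset.sum_ite_mem, Finset.sum_const, nsmul_eq_mul]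
    have h4 : ((J ∩ (Sx x ∪ Sx y)).card : ℝ) ≤ 6 := by
      have h5 := Finset.card_le_card (Finset.inter_subset_right (s₁ := J) (s₂ := Sx x ∪ Sx y))
      have h6 := Finset.card_union_le (Sx x) (Sx y)
      rw [hSx, hSx] at h6
      exact_mod_cast h5.trans h6
    calc ((J ∩ (Sx x ∪ Sx y)).card : ℝ) * ((C * ρ x y + ρ x y) / 3)
        ≤ 6 * ((C * ρ x y + ρ x y) / 3) := mul_le_mul_of_nonneg_right h4 hB0
      _ = _ := by ring

/-- **the map of a piece**: exact at the edge `s t` from a centre `s`, nonexpansive at all pairs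
`(a, x)`, `a` a centre -/
theorem star_core {V : Type} [Finite V] {ρ f : V → V → ℝ} {C : ℝ} (hC : 1 ≤ C) (hρ : IsMet ρ)
    (hf : IsL1 f) (h1 : ∀ x y, ρ x y ≤ f x y) (h2 : ∀ x y, f x y ≤ C * ρ x y) (A : Finset V)
    {s t : V} (hs : s ∈ A) :
    ∃ F : V → V → ℝ, IsL1 F ∧ F s t = ρ s t ∧ (∀ a ∈ A, ∀ x, F a x ≤ ρ a x) ∧
      (∀ x y, F x y ≤ 3 * C * ρ x y) ∧
      ∀ x y, ρ x y ≤ 576 * ((Nat.log 2 A.card + 1 : ℕ) : ℝ) * F x y := by
  classical
  have hne : A.Nonempty := ⟨s, hs⟩
  have hν : ∀ x, ∃ a ∈ A, ∀ b ∈ A, ρ x a ≤ ρ x b := fun x => A.exists_min_image (ρ x) hne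
  choose ν hνA hνm using hν
  set r : V → ℝ := fun x => ρ x (ν x) with hr
  have hr0 : ∀ x, 0 ≤ r x := fun x => hρ.nonneg _ _
  have hr1 : ∀ x y, r x - r y ≤ ρ x y := by
    intro x y
    have h3 := hνm x (ν y) (hνA y)
    have h4 := hρ.tri x y (ν y)
    simp only [hr]
    linarith
  have hrl : ∀ x y, |r x - r y| ≤ ρ x y := by
    intro x y
    rw [abs_le]
    have h3 := hr1 y x
    rw [hρ.symm y x] at h3
    constructor
    · linarith
    · exact hr1 x y
  have hra : ∀ a ∈ A, r a = 0 := by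
    intro a ha
    have h3 := hνm a a ha
    rw [hρ.self] at h3
    exact le_antisymm h3 (hr0 a)
  have hrx : ∀ a ∈ A, ∀ x, r x ≤ ρ a x := by
    intro a ha x
    rw [hρ.symm a x]
    exact hνm x a ha
  obtain ⟨κ, hκ, q, g, hq, hq1, hb, hlo, hup⟩ := fam_all hC hρ hf h1 h2 r hr0 hrl
  obtain ⟨ι, hι, w, h, hw, hw1, hh, hhl⟩ := H873.bourgain_fam hρ.symm hρ.tri hρ.nonneg A r
    (fun u => ⟨ν u, hνA u, le_rfl⟩)
  set u : V → ℝ := fun x => ρ x s with hu
  have hul : ∀ x y, |u x - u y| ≤ ρ x y := fun x y => abs_dist_sub hρ x y s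
  have hust : |u s - u t| = ρ s t := by
    simp only [hu]
    rw [hρ.self, zero_sub, abs_neg, hρ.symm t s, abs_of_nonneg (hρ.nonneg s t)]
  set F1 : V → V → ℝ := fun x y => max |u x - u y| |r x - r y| with hF1
  set F2 : V → V → ℝ := fun x y => ∑ k, q k * max |u x - u y| |g k x - g k y| with hF2
  set F3 : V → V → ℝ := fun x y => ∑ i, w i * max |u x - u y| |h i x - h i y| with hF3
  have L1 : IsL1 F1 := isL1_max u r
  have L2 : IsL1 F2 := IsL1.sum Finset.univ
    (fun k x y => q k * max |u x - u y| |g k x - g k y|) fun k _ => (isL1_max u (g k)).smul (hq k)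
  have L3 : IsL1 F3 := IsL1.sum Finset.univ
    (fun i x y => w i * max |u x - u y| |h i x - h i y|) fun i _ => (isL1_max u (h i)).smul (hw i)
  have hg0 : ∀ k, ∀ a ∈ A, g k a = 0 := by
    intro k a ha
    have := hb k a
    rw [hra a ha] at this
    exact abs_eq_zero.mp (le_antisymm this (abs_nonneg _))
  have hgx : ∀ k, ∀ a ∈ A, ∀ x, |g k a - g k x| ≤ ρ a x := by
    intro k a ha x
    rw [hg0 k a ha, zero_sub, abs_neg]
    exact (hb k x).trans (hrx a ha x)
  have E1 : F1 s t = ρ s t := by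
    show max |u s - u t| |r s - r t| = ρ s t
    rw [hust]
    exact max_eq_left (hrl s t)
  have E2 : F2 s t = ρ s t := by
    show ∑ k, q k * max |u s - u t| |g k s - g k t| = ρ s t
    have h3 : ∀ k, max |u s - u t| |g k s - g k t| = ρ s t := by
      intro k
      rw [hust]
      exact max_eq_left (hgx k s hs t)
    simp only [h3]
    rw [← Finset.sum_mul, hq1, one_mul]
  have E3 : F3 s t = ρ s t := by
    show ∑ i, w i * max |u s - u t| |h i s - h i t| = ρ s t
    have h3 : ∀ i, max |u s - u t| |h i s - h i t| = ρ s t := by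
      intro i
      rw [hust]
      exact max_eq_left (hh i s t)
    simp only [h3]
    rw [← Finset.sum_mul, hw1, one_mul]
  have U1 : ∀ x y, F1 x y ≤ ρ x y := fun x y => max_le (hul x y) (hrl x y)
  have U3 : ∀ x y, F3 x y ≤ ρ x y := by
    intro x y
    calc F3 x y ≤ ∑ i, w i * ρ x y :=
          Finset.sum_le_sum fun i _ => mul_le_mul_of_nonneg_left (max_le (hul x y) (hh i x y)) (hw i)
      _ = ρ x y := by rw [← Finset.sum_mul, hw1, one_mul]
  have U2 : ∀ a ∈ A, ∀ x, F2 a x ≤ ρ a x := by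
    intro a ha x
    calc F2 a x ≤ ∑ k, q k * ρ a x :=
          Finset.sum_le_sum fun k _ =>
            mul_le_mul_of_nonneg_left (max_le (hul a x) (hgx k a ha x)) (hq k)
      _ = ρ a x := by rw [← Finset.sum_mul, hq1, one_mul]
  have U2' : ∀ x y, F2 x y ≤ (2 * C + 3) * ρ x y := by
    intro x y
    have h3 : F2 x y ≤ ∑ k, (q k * ρ x y + q k * |g k x - g k y|) := by
      refine Finset.sum_le_sum fun k _ => ?_
      rw [← mul_add]
      refine mul_le_mul_of_nonneg_left (max_le ?_ ?_) (hq k)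
      · linarith [hul x y, abs_nonneg (g k x - g k y)]
      · linarith [hρ.nonneg x y]
    rw [Finset.sum_add_distrib, ← Finset.sum_mul, hq1, one_mul] at h3
    linarith [hup x y]
  have N1 : ∀ x y, |r x - r y| ≤ F1 x y := fun x y => le_max_right _ _
  have N2 : ∀ x y, min (ρ x y) (r x + r y) / 48 - |r x - r y| / 3 ≤ F2 x y := by
    intro x y
    refine (hlo x y).trans ?_
    exact Finset.sum_le_sum fun k _ => mul_le_mul_of_nonneg_left (le_max_right _ _) (hq k)
  have N3 : ∀ x y, ρ x y / 2 - max (r x) (r y) ≤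
      12 * ((Nat.log 2 A.card + 1 : ℕ) : ℝ) * F3 x y := by
    intro x y
    refine (hhl x y).trans ?_
    refine mul_le_mul_of_nonneg_left ?_ (by positivity)
    exact Finset.sum_le_sum fun i _ => mul_le_mul_of_nonneg_left (le_max_right _ _) (hw i)
  refine ⟨fun x y => (1 / 3) * F1 x y + (1 / 3) * F2 x y + (1 / 3) * F3 x y, ?_, ?_, ?_, ?_, ?_⟩
  · exact ((L1.smul (by norm_num)).add (L2.smul (by norm_num))).add (L3.smul (by norm_num))
  · show (1 / 3) * F1 s t + (1 / 3) * F2 s t + (1 / 3) * F3 s t = ρ s t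
    rw [E1, E2, E3]; ring
  · intro a ha x
    have h3 := U1 a x
    have h4 := U2 a ha x
    have h5 := U3 a x
    linarith
  · intro x y
    have h3 := U1 x y
    have h4 := U2' x y
    have h5 := U3 x y
    have h6 := hρ.nonneg x y
    have h7 : ρ x y ≤ C * ρ x y := le_mul_of_one_le_left h6 hC
    linarith
  · intro x y
    obtain ⟨m, hm⟩ : ∃ m : ℝ, m = ((Nat.log 2 A.card + 1 : ℕ) : ℝ) := ⟨_, rfl⟩
    have hm1 : (1 : ℝ) ≤ m := by rw [hm]; exact_mod_cast Nat.le_add_left 1 _
    have n1 := N1 x y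
    have n2 := N2 x y
    have n3 := N3 x y
    rw [← hm] at n3 ⊢
    have p1 := L1.nonneg x y
    have p2 := L2.nonneg x y
    have p3 := L3.nonneg x y
    have p4 := hρ.nonneg x y
    have p5 := abs_nonneg (r x - r y)
    show ρ x y ≤ 576 * m * ((1 / 3) * F1 x y + (1 / 3) * F2 x y + (1 / 3) * F3 x y)
    have e : 576 * m * ((1 / 3) * F1 x y + (1 / 3) * F2 x y + (1 / 3) * F3 x y) =
        192 * (m * F1 x y) + 192 * (m * F2 x y) + 192 * (m * F3 x y) := by ring
    rw [e]
    have m1 : F1 x y ≤ m * F1 x y := le_mul_of_one_le_left p1 hm1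
    have m2 : F2 x y ≤ m * F2 x y := le_mul_of_one_le_left p2 hm1
    have m3 : F3 x y ≤ m * F3 x y := le_mul_of_one_le_left p3 hm1
    have e3 : 12 * m * F3 x y = 12 * (m * F3 x y) := by ring
    rw [e3] at n3
    by_cases hc : max (r x) (r y) ≤ ρ x y / 4
    · linarith
    · push Not at hc
      have h3 : ρ x y / 4 ≤ min (ρ x y) (r x + r y) := by
        refine le_min (by linarith) ?_
        have : max (r x) (r y) ≤ r x + r y := max_le (by linarith [hr0 y]) (by linarith [hr0 x])
        linarith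
      linarith

end Vale.Agent.P235.H141.Star
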