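import Vale.Agent.P235.H141.Star.MSum

/-!
# P235: edge sums over marked edges (star sums)

`MSum P G E`: `G` is obtained from pieces by gluing along marked edges; `E` = the marked edges.
The 2-sum theorem for pieces which are only embedded with `c₁ ≤ C` (no edge-exact map), when the
marked edges of every piece are covered by few vertices.
-/

set_option autoImplicit false

namespace Vale.Agent.P235.H141.Star

open Vale.Agent.P235

/-- the edges of `G` which are marked or stretched by the factor `M` -/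
def tight {V : Type} (G E : SimpleGraph V) (d d' : V → V → ℝ) (M : ℝ) : SimpleGraph V where
  Adj u v := G.Adj u v ∧ (E.Adj u v ∨ (M * d u v ≤ d' u v ∧ M * d v u ≤ d' v u))
  symm := ⟨fun u v h => ⟨h.1.symm, h.2.imp (fun h => h.symm) fun h => ⟨h.2, h.1⟩⟩⟩
  loopless := ⟨fun u h => G.loopless.irrefl u h.1⟩

/-- the pair of metrics: `d` original, `d'` = marked edges unchanged, the others stretched -/
structure Pair {V : Type} (G E : SimpleGraph V) (M : ℝ) (d d' : V → V → ℝ) : Prop where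
  met : IsMet d
  met' : IsMet d'
  gen : Gen G d
  gen' : Gen (tight G E d d' M) d'
  le : ∀ x y, d x y ≤ d' x y
  le' : ∀ x y, d' x y ≤ M * d x y
  eq : ∀ u v, E.Adj u v → d' u v = d u v

/-- what is needed of a piece -/
def PieceOK {V : Type} (M c : ℝ) (G E : SimpleGraph V) : Prop :=
  ∀ d d' : V → V → ℝ, Pair G E M d d' → ∀ s t, E.Adj s t → ∀ D, 0 < D → D ≤ d' s t →
    ∃ F : V → V → ℝ, IsL1 F ∧ F s t = D ∧ (∀ x y, c * short d' s t D x y ≤ F x y) ∧
      ∀ x y, F x y ≤ short d' s t D x y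

/-- `MSum` without deletions -/
inductive MSum0 (P : ∀ (V : Type), SimpleGraph V → SimpleGraph V → Prop) :
    ∀ {V : Type}, SimpleGraph V → SimpleGraph V → Prop
  | base {V : Type} {G E : SimpleGraph V} : E ≤ G → P V G E → MSum0 P G E
  | glue {V : Type} {G E : SimpleGraph V} {A B : Set V} {s t : V} :
      E ≤ G → E.Adj s t → A ∪ B = Set.univ → A ∩ B = {s, t} →
      (∀ a b, a ∉ B → b ∉ A → ¬ G.Adj a b) →
      MSum0 P (G.induce A) (E.induce A) → MSum0 P (G.induce B) (E.induce B) → MSum0 P G E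

/-- **[A1]** deletions at the end only -/
def SuperStmt : Prop := ∀ (P : ∀ (V : Type), SimpleGraph V → SimpleGraph V → Prop) (V : Type)
  (G E : SimpleGraph V), MSum P G E → ∃ G₁ E₁ : SimpleGraph V, G ≤ G₁ ∧ E ≤ E₁ ∧ MSum0 P G₁ E₁

/-- **[A]** the induction (copy of `main_induct2`) -/
def IndStmt : Prop := ∀ (P : ∀ (V : Type), SimpleGraph V → SimpleGraph V → Prop) (c M : ℝ),
  0 < c → c ≤ 1 → 1 ≤ M →
  (∀ (V : Type) [Finite V] (G E : SimpleGraph V), E ≤ G → P V G E → PieceOK M c G E) →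
  ∀ (V : Type) [Finite V] (G E : SimpleGraph V), MSum0 P G E → ∀ d d' : V → V → ℝ,
    Pair G E M d d' → ∀ s t, E.Adj s t →
    ∃ F : V → V → ℝ, IsL1 F ∧ F s t = d s t ∧ (∀ x y, c / 12000 * d' x y ≤ F x y) ∧
      ∀ x y, F x y ≤ d' x y

/-- **[B]** the piece with few centres -/
def StarStmt : Prop := ∃ K : ℝ, 1 ≤ K ∧ ∀ (C : ℝ) (t : ℕ), 1 ≤ C → 1 ≤ t →
  ∀ (V : Type) [Finite V] (G E : SimpleGraph V), G.Connected → E ≤ G → DistortionLE G C →
    ∀ A : Finset V, A.card ≤ t → (∀ u v, E.Adj u v → u ∈ A ∨ v ∈ A) →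
      PieceOK (3 * C) (1 / (K * C * Real.log (t + 2))) G E

end Vale.Agent.P235.H141.Star
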