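import Vale.Agent.P235.H141.Star.Defs

/-!
# P235, star sums: bounded random functions of several scales
-/

set_option autoImplicit false

namespace Vale.Agent.P235.H141.Star

open Vale.Agent.P235

/-- one scale: a probability family of functions of absolute value `≤ τ φ` -/
theorem fam_one {V : Type} {f : V → V → ℝ} (hf : IsL1 f) {τ : ℝ} (hτ : 0 < τ) (φ : V → ℝ)
    (hφ : ∀ x, 0 ≤ φ x) :
    ∃ (κ : Type) (_ : Fintype κ) (q : κ → ℝ) (g : κ → V → ℝ), (∀ k, 0 ≤ q k) ∧ ∑ k, q k = 1 ∧
      (∀ k x, |g k x| ≤ τ * φ x) ∧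
      (∀ x y, φ x * (min (f x y) τ / 2) - τ * |φ x - φ y| ≤ ∑ k, q k * |g k x - g k y|) ∧
      ∀ x y, ∑ k, q k * |g k x - g k y| ≤ φ x * f x y + τ * |φ x - φ y| := by
  classical
  obtain ⟨κ, hκ, q, s, hq, h1, hE⟩ := hf.signRep hτ
  have hsum : ∀ x y : V, ∑ k, q k * |sg (s k x) - sg (s k y)| =
      1 - Real.exp (-(f x y / τ)) := by
    intro x y
    have hE' : Real.exp (-(f x y / τ)) = ∑ k, q k * (if s k x = s k y then 1 else -1) := hE x y
    have h2 : ∑ k, q k * |sg (s k x) - sg (s k y)| =
        ∑ k, (q k - q k * (if s k x = s k y then 1 else -1)) := by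
      refine Finset.sum_congr rfl fun k _ => ?_
      rw [sg_sub]
      ring
    rw [hE', h2, Finset.sum_sub_distrib, h1]
  have hg : ∀ k x y, |τ * (φ x * sg (s k x)) - τ * (φ y * sg (s k y))| =
      τ * |φ x * sg (s k x) - φ y * sg (s k y)| := by
    intro k x y
    rw [← mul_sub, abs_mul, abs_of_pos hτ]
  refine ⟨κ, hκ, q, fun k x => τ * (φ x * sg (s k x)), hq, h1, ?_, ?_, ?_⟩
  · intro k x
    rw [abs_mul, abs_mul, sg_abs, mul_one, abs_of_pos hτ, abs_of_nonneg (hφ x)]
  · intro x y
    have h2 : ∑ k, (φ x * (q k * |sg (s k x) - sg (s k y)|) - q k * |φ x - φ y|) ≤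
        ∑ k, q k * |φ x * sg (s k x) - φ y * sg (s k y)| := by
      refine Finset.sum_le_sum fun k _ => ?_
      have := mul_le_mul_of_nonneg_left (sg_lower (s k x) (s k y) (p' := φ y) (hφ x)) (hq k)
      linarith
    rw [Finset.sum_sub_distrib, ← Finset.mul_sum, ← Finset.sum_mul, h1, hsum, one_mul] at h2
    have h3 := mul_le_mul_of_nonneg_left h2 hτ.le
    have h4 := mul_le_mul_of_nonneg_left (exp_lower (ρ := f x y) hτ (hf.nonneg x y)) (hφ x)
    have h5 : ∑ k, q k * |τ * (φ x * sg (s k x)) - τ * (φ y * sg (s k y))| =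
        τ * ∑ k, q k * |φ x * sg (s k x) - φ y * sg (s k y)| := by
      rw [Finset.mul_sum]
      refine Finset.sum_congr rfl fun k _ => ?_
      rw [hg]; ring
    rw [h5]
    linarith
  · intro x y
    have h2 : ∑ k, q k * |φ x * sg (s k x) - φ y * sg (s k y)| ≤
        ∑ k, (φ x * (q k * |sg (s k x) - sg (s k y)|) + q k * |φ x - φ y|) := by
      refine Finset.sum_le_sum fun k _ => ?_
      have := mul_le_mul_of_nonneg_left (sg_upper (s k x) (s k y) (p' := φ y) (hφ x)) (hq k)
      linarith
    rw [Finset.sum_add_distrib, ← Finset.mul_sum, ← Finset.sum_mul, h1, hsum, one_mul] at h2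
    have h3 := mul_le_mul_of_nonneg_left h2 hτ.le
    have h4 := mul_le_mul_of_nonneg_left (exp_upper (ρ := f x y) hτ) (hφ x)
    have h5 : ∑ k, q k * |τ * (φ x * sg (s k x)) - τ * (φ y * sg (s k y))| =
        τ * ∑ k, q k * |φ x * sg (s k x) - φ y * sg (s k y)| := by
      rw [Finset.mul_sum]
      refine Finset.sum_congr rfl fun k _ => ?_
      rw [hg]; ring
    rw [h5]
    linarith

theorem abs_pm (a b : ℝ) : |a + b| + |a - b| = 2 * max |a| |b| := by
  rcases abs_cases (a + b) with ⟨h1, h1'⟩ | ⟨h1, h1'⟩ <;>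
    rcases abs_cases (a - b) with ⟨h2, h2'⟩ | ⟨h2, h2'⟩ <;>
    rcases abs_cases a with ⟨h3, h3'⟩ | ⟨h3, h3'⟩ <;>
    rcases abs_cases b with ⟨h4, h4'⟩ | ⟨h4, h4'⟩ <;>
    rcases max_cases |a| |b| with ⟨h5, h5'⟩ | ⟨h5, h5'⟩ <;> rw [h5, h1, h2] <;>
    simp only [h3, h4] at * <;> linarith

/-- independent sum of finitely many families with random signs -/
theorem fam_sum {V ι : Type} [DecidableEq ι] (J : Finset ι) (b : ι → V → ℝ)
    (lo up : ι → V → V → ℝ)
    (h : ∀ j ∈ J, ∃ (κ : Type) (_ : Fintype κ) (q : κ → ℝ) (g : κ → V → ℝ), (∀ k, 0 ≤ q k) ∧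
      ∑ k, q k = 1 ∧ (∀ k x, |g k x| ≤ b j x) ∧
      (∀ x y, lo j x y ≤ ∑ k, q k * |g k x - g k y|) ∧
      ∀ x y, ∑ k, q k * |g k x - g k y| ≤ up j x y) :
    ∃ (κ : Type) (_ : Fintype κ) (q : κ → ℝ) (g : κ → V → ℝ), (∀ k, 0 ≤ q k) ∧ ∑ k, q k = 1 ∧
      (∀ k x, |g k x| ≤ ∑ j ∈ J, b j x) ∧
      (∀ j ∈ J, ∀ x y, lo j x y ≤ ∑ k, q k * |g k x - g k y|) ∧
      ∀ x y, ∑ k, q k * |g k x - g k y| ≤ ∑ j ∈ J, up j x y := by
  classical
  induction J using Finset.induction_on with
  | empty =>
    refine ⟨Unit, inferInstance, fun _ => 1, fun _ _ => 0, fun _ => zero_le_one, by simp, ?_, ?_, ?_⟩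
    · intro k x; simp
    · intro j hj; simp at hj
    · intro x y; simp
  | insert a J ha ih =>
    obtain ⟨κ, hκ, q, g, hq, hq1, hb, hlo, hup⟩ := ih fun j hj => h j (Finset.mem_insert_of_mem hj)
    obtain ⟨κ', hκ', q', g', hq', hq1', hb', hlo', hup'⟩ := h a (Finset.mem_insert_self a J)
    have key : ∀ x y, ∑ p : κ × κ' × Bool, (q p.1 * q' p.2.1 / 2) *
        |(g p.1 x + (if p.2.2 then (1 : ℝ) else -1) * g' p.2.1 x) -
          (g p.1 y + (if p.2.2 then (1 : ℝ) else -1) * g' p.2.1 y)| =
        ∑ k, ∑ l, q k * q' l * max |g k x - g k y| |g' l x - g' l y| := by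
      intro x y
      rw [Fintype.sum_prod_type]
      refine Finset.sum_congr rfl fun k _ => ?_
      rw [Fintype.sum_prod_type]
      refine Finset.sum_congr rfl fun l _ => ?_
      rw [Fintype.sum_bool]
      have e1 : (g k x + (if true = true then (1 : ℝ) else -1) * g' l x) -
          (g k y + (if true = true then (1 : ℝ) else -1) * g' l y) =
          (g k x - g k y) + (g' l x - g' l y) := by
        simp only [if_true]; ring
      have e2 : (g k x + (if false = true then (1 : ℝ) else -1) * g' l x) -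
          (g k y + (if false = true then (1 : ℝ) else -1) * g' l y) =
          (g k x - g k y) - (g' l x - g' l y) := by
        simp only [Bool.false_eq_true, if_false]; ring
      have e3 := abs_pm (g k x - g k y) (g' l x - g' l y)
      simp only at e1 e2 ⊢
      rw [e1, e2]
      linear_combination (q k * q' l / 2) * e3
    have hmul1 : ∀ c : κ → ℝ, ∑ k, ∑ l, q k * q' l * c k = ∑ k, q k * c k := by
      intro c
      refine Finset.sum_congr rfl fun k _ => ?_
      have : ∀ l, q k * q' l * c k = q k * c k * q' l := fun l => by ring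
      simp only [this]
      rw [← Finset.mul_sum, hq1', mul_one]
    have hmul2 : ∀ c : κ' → ℝ, ∑ k, ∑ l, q k * q' l * c l = ∑ l, q' l * c l := by
      intro c
      rw [Finset.sum_comm]
      refine Finset.sum_congr rfl fun l _ => ?_
      have : ∀ k, q k * q' l * c l = q' l * c l * q k := fun k => by ring
      simp only [this]
      rw [← Finset.mul_sum, hq1, mul_one]
    refine ⟨κ × κ' × Bool, inferInstance, fun p => q p.1 * q' p.2.1 / 2,
      fun p x => g p.1 x + (if p.2.2 then (1 : ℝ) else -1) * g' p.2.1 x, ?_, ?_, ?_, ?_, ?_⟩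
    · intro p
      have := mul_nonneg (hq p.1) (hq' p.2.1)
      simp only
      linarith
    · rw [Fintype.sum_prod_type]
      have : ∀ k, ∑ p : κ' × Bool, q k * q' p.1 / 2 = q k := by
        intro k
        rw [Fintype.sum_prod_type]
        have h2 : ∀ l, ∑ _e : Bool, q k * q' l / 2 = q k * q' l := by
          intro l; rw [Fintype.sum_bool]; ring
        simp only [h2]
        rw [← Finset.mul_sum, hq1', mul_one]
      simp only [this]
      exact hq1
    · intro p x
      rw [Finset.sum_insert ha]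
      refine (abs_add_le _ _).trans ?_
      have h1 : |(if p.2.2 then (1 : ℝ) else -1) * g' p.2.1 x| = |g' p.2.1 x| := by
        rw [abs_mul]
        have : |(if p.2.2 then (1 : ℝ) else -1)| = 1 := by split_ifs <;> simp
        rw [this, one_mul]
      rw [h1]
      linarith [hb p.1 x, hb' p.2.1 x]
    · intro j hj x y
      refine le_trans ?_ (key x y).ge
      rcases Finset.mem_insert.mp hj with rfl | hj
      · refine (hlo' x y).trans ?_
        rw [← hmul2]
        refine Finset.sum_le_sum fun k _ => Finset.sum_le_sum fun l _ => ?_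
        exact mul_le_mul_of_nonneg_left (le_max_right _ _) (mul_nonneg (hq k) (hq' l))
      · refine (hlo j hj x y).trans ?_
        rw [← hmul1]
        refine Finset.sum_le_sum fun k _ => Finset.sum_le_sum fun l _ => ?_
        exact mul_le_mul_of_nonneg_left (le_max_left _ _) (mul_nonneg (hq k) (hq' l))
    · intro x y
      refine (key x y).le.trans ?_
      rw [Finset.sum_insert ha]
      have h1 : ∑ k, ∑ l, q k * q' l * max |g k x - g k y| |g' l x - g' l y| ≤
          ∑ k, ∑ l, (q k * q' l * |g k x - g k y| + q k * q' l * |g' l x - g' l y|) := by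
        refine Finset.sum_le_sum fun k _ => Finset.sum_le_sum fun l _ => ?_
        rw [← mul_add]
        refine mul_le_mul_of_nonneg_left (max_le ?_ ?_) (mul_nonneg (hq k) (hq' l))
        · linarith [abs_nonneg (g' l x - g' l y)]
        · linarith [abs_nonneg (g k x - g k y)]
      refine h1.trans ?_
      simp only [Finset.sum_add_distrib]
      rw [hmul1, hmul2]
      linarith [hup x y, hup' x y]

end Vale.Agent.P235.H141.Star
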