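import Vale.Agent.P235.H141.Star.Piece
import Vale.Agent.P235.H142.Star.Ind
import Vale.Agent.P235.H23.Star.C
import Vale.Agent.P235.ST.H945.All6

/-!
# P235, star sums: the final theorems

Edge sums of arbitrary graphs with `c₁ ≤ C` along edges which in every piece are covered by at most
`t` vertices.
-/

set_option autoImplicit false

namespace Vale.Agent.P235.H141.Star

open Vale.Agent.P235

/-- the marked edges are covered by at most `t` vertices -/
def Covered {V : Type} (t : ℕ) (E : SimpleGraph V) : Prop :=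
  ∃ A : Finset V, A.card ≤ t ∧ ∀ u v, E.Adj u v → u ∈ A ∨ v ∈ A

/-- the embeddings of the metrics of a marked edge sum -/
theorem emb_final {P : ∀ (V : Type), SimpleGraph V → SimpleGraph V → Prop}
    {c M : ℝ} (hc : 0 < c) (hc1 : c ≤ 1) (hM : 1 ≤ M)
    (hP : ∀ (V : Type) [Finite V] (G E : SimpleGraph V), E ≤ G → P V G E → PieceOK M c G E)
    (hB : ∀ (V : Type) [Finite V] (G E : SimpleGraph V), P V G E → ∀ d : V → V → ℝ, IsMet d →
      Gen G d → ∃ F : V → V → ℝ, IsL1 F ∧ (∀ x y, c / (12000 * M) * d x y ≤ F x y) ∧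
        ∀ x y, F x y ≤ d x y)
    {V : Type} [Finite V] {G E : SimpleGraph V} (hE : MSum P G E) {d : V → V → ℝ} (hd : IsMet d)
    (hG : Gen G d) : ∃ F : V → V → ℝ, IsL1 F ∧ (∀ x y, c / (12000 * M) * d x y ≤ F x y) ∧
      ∀ x y, F x y ≤ d x y := by
  have hM0 : 0 < M := by linarith
  obtain ⟨G₁, E₁, hGG, -, h0⟩ := H142.Star.super P V G E hE
  have hG₁ : Gen G₁ d := fun f hf => hG f fun u v huv => hf u v (hGG huv)
  by_cases hno : ∃ s t, E₁.Adj s t
  · obtain ⟨s, t, hst⟩ := hno
    have hle : E₁ ≤ G₁ := by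
      cases h0 with
      | base h _ => exact h
      | glue h _ _ _ _ _ _ => exact h
    obtain ⟨d', hp⟩ := H23.Star.exists_pair hd hG₁ hle hM
    have hup := hp.le'
    obtain ⟨F, h1, -, h2, h3⟩ := H142.Star.ind P c M hc hc1 hM hP V G₁ E₁ h0 d d' hp s t hst
    refine ⟨_, h1.smul (by positivity : (0 : ℝ) ≤ 1 / M), fun x y => ?_, fun x y => ?_⟩
    · have h4 : c / 12000 * d x y ≤ c / 12000 * d' x y :=
        mul_le_mul_of_nonneg_left (hp.le x y) (by positivity)
      have h5 := mul_le_mul_of_nonneg_left (h4.trans (h2 x y)) (by positivity : (0 : ℝ) ≤ 1 / M)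
      refine le_trans (le_of_eq ?_) h5
      field_simp
    · have h4 := mul_le_mul_of_nonneg_left ((h3 x y).trans (hup x y))
        (by positivity : (0 : ℝ) ≤ 1 / M)
      refine h4.trans (le_of_eq ?_)
      field_simp
  · have hbase : P V G₁ E₁ := by
      cases h0 with
      | base _ h => exact h
      | glue _ h _ _ _ _ _ => exact absurd ⟨_, _, h⟩ hno
    exact hB V G₁ E₁ hbase d hd hG₁

/-- **star sums**: pieces with `c₁ ≤ C` and marked edges covered by `t` vertices, or with
edge-isometric embeddings of distortion `D` and any marks -/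
theorem star_all : ∃ K : ℝ, 1 ≤ K ∧ ∀ (Q R : ∀ (V : Type), SimpleGraph V → Prop) (C D : ℝ) (t : ℕ),
    1 ≤ C → 1 ≤ D →
    (∀ (V : Type) [Finite V] (G : SimpleGraph V), G.Connected → Q V G → DistortionLE G C) →
    (∀ (V : Type) [Finite V] (G : SimpleGraph V), G.Connected → R V G → EdgeIso G D) →
    ∀ (V : Type) [Finite V] (G E : SimpleGraph V), G.Connected →
      MSum (fun V G E => (Q V G ∧ Covered t E) ∨ R V G) G E →
      DistortionLE G (K * C * (D + C * Real.log ((t : ℝ) + 2))) := by
  obtain ⟨K, hK, hS⟩ := starStmt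
  refine ⟨72000 * K, by nlinarith, fun Q R C D t hC hD1 hQ hR V _ G E hconn hE => ?_⟩
  obtain ⟨t', ht', htt, hlog⟩ : ∃ t' : ℕ, 1 ≤ t' ∧ t ≤ t' ∧
      Real.log ((t' : ℝ) + 2) ≤ 2 * Real.log ((t : ℝ) + 2) := by
    rcases Nat.eq_zero_or_pos t with h0 | h0
    · subst h0
      refine ⟨1, le_rfl, zero_le_one, ?_⟩
      have h1 : (2 : ℝ) * Real.log (((0 : ℕ) : ℝ) + 2) = Real.log (2 ^ 2) := by
        rw [Real.log_pow]
        norm_num
      rw [h1]
      exact Real.log_le_log (by norm_num) (by norm_num)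
    · refine ⟨t, h0, le_rfl, ?_⟩
      have h1 : (0 : ℝ) < (t : ℝ) + 2 := by positivity
      have h2 : 0 ≤ Real.log ((t : ℝ) + 2) := Real.log_nonneg (by
        have : (0 : ℝ) ≤ t := Nat.cast_nonneg t
        linarith)
      linarith
  have hL : 1 ≤ Real.log ((t' : ℝ) + 2) := by
    have h1 : (1 : ℝ) ≤ t' := by exact_mod_cast ht'
    rw [Real.le_log_iff_exp_le (by linarith)]
    have := Real.exp_one_lt_d9
    linarith
  obtain ⟨L, hLL⟩ : ∃ L, L = Real.log ((t' : ℝ) + 2) := ⟨_, rfl⟩
  rw [← hLL] at hL hlog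
  have hC0 : 0 < C := by linarith
  have hD0 : 0 < D := by linarith
  have hK0 : 0 < K := by linarith
  have hKCL0 : 0 < K * C * L := by positivity
  have hKCL : C ≤ K * C * L := by
    have h1 : 1 ≤ K * L := by nlinarith
    calc C = 1 * C := (one_mul C).symm
      _ ≤ K * L * C := mul_le_mul_of_nonneg_right h1 hC0.le
      _ = _ := by ring
  obtain ⟨c, hcc⟩ : ∃ c, c = 1 / (D + K * C * L) := ⟨_, rfl⟩
  have hc : 0 < c := by rw [hcc]; positivity
  have hcS : c ≤ 1 / (K * C * L) := by
    rw [hcc]
    exact one_div_le_one_div_of_le hKCL0 (by linarith)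
  have hcC : c ≤ 1 / C := hcS.trans (one_div_le_one_div_of_le hC0 hKCL)
  have hcD : c ≤ 1 / D := by
    rw [hcc]
    exact one_div_le_one_div_of_le hD0 (by linarith)
  have hc1 : c ≤ 1 := hcC.trans (by rw [div_le_one hC0]; exact hC)
  have hM : 1 ≤ 3 * C := by linarith
  have hc36 : c / (12000 * (3 * C)) ≤ c := by
    rw [div_le_iff₀ (by positivity)]
    have : 1 ≤ 12000 * (3 * C) := by linarith
    exact le_mul_of_one_le_right hc.le this
  have hmain : ∀ {d : V → V → ℝ}, IsMet d → Gen G d → ∃ F : V → V → ℝ, IsL1 F ∧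
      (∀ x y, c / (12000 * (3 * C)) * d x y ≤ F x y) ∧ ∀ x y, F x y ≤ d x y := by
    intro d hd hG
    refine emb_final hc hc1 hM ?_ ?_ hE hd hG
    · intro V _ G E hle hp
      rcases hp with ⟨hq, A, hA, hcov⟩ | hI
      · intro d d' hP s t hst D' hD' hD''
        have : Nonempty V := ⟨s⟩
        have hconn : G.Connected := ⟨hP.gen.preconnected hP.met⟩
        have h := hS C t' hC ht' V G E hconn hle (hQ V G hconn hq) A (hA.trans htt) hcov
        rw [← hLL] at h
        exact h.mono hcS d d' hP s t hst D' hD' hD''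
      · exact (pieceOK_of_edgeExact hle (EdgeIso.edgeExact hD0 fun hconn => hR V G hconn hI)).mono
          hcD
    · intro V _ G E hp d hd hG
      rcases isEmpty_or_nonempty V with h | h
      · exact ⟨fun _ _ => 0, IsL1.zero, fun x => h.elim x, fun x => h.elim x⟩
      have hconn : G.Connected := ⟨hG.preconnected hd⟩
      rcases hp with ⟨hq, -⟩ | hI
      · obtain ⟨f, h1, h2, h3⟩ := emb_of_gen (hQ V G hconn hq) hconn hd hG
        refine ⟨_, h1.smul (by positivity : (0 : ℝ) ≤ 1 / C), fun x y => ?_, fun x y => ?_⟩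
        · refine (mul_le_mul_of_nonneg_right (hc36.trans hcC) (hd.nonneg x y)).trans ?_
          exact mul_le_mul_of_nonneg_left (h2 x y) (by positivity)
        · have h4 := mul_le_mul_of_nonneg_left (h3 x y) (by positivity : (0 : ℝ) ≤ 1 / C)
          refine h4.trans (le_of_eq ?_)
          field_simp
      · by_cases hno : ∃ s t, G.Adj s t
        · obtain ⟨s, t, hst⟩ := hno
          obtain ⟨F, h1, -, h2, h3⟩ :=
            (EdgeIso.edgeExact hD0 fun hconn => hR V G hconn hI : EdgeExact G (1 / D)) d hd hG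
              s t hst
          exact ⟨F, h1, fun x y =>
            (mul_le_mul_of_nonneg_right (hc36.trans hcD) (hd.nonneg x y)).trans (h2 x y), h3⟩
        · have hsub : ∀ x y : V, x = y := by
            intro x y
            by_contra hxy
            obtain ⟨w⟩ := hconn.preconnected x y
            cases w with
            | nil => exact hxy rfl
            | cons h p => exact hno ⟨_, _, h⟩
          refine ⟨fun _ _ => 0, IsL1.zero, fun x y => ?_, fun x y => hd.nonneg x y⟩
          rw [hsub x y, hd.self, mul_zero]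
  have h0 : 0 < c / (12000 * (3 * C)) := by positivity
  refine DistortionLE.mono (C := 1 / (c / (12000 * (3 * C)))) ?_ ?_
  · intro ℓ hℓ
    have hd := pathDist_isMet hconn hℓ
    have hgen : Gen G (pathDist G ℓ) := by
      intro f hf x y
      exact pathDist_gen hconn (fun u v huv => (hf u v huv).trans (pathDist_adj hℓ huv)) x y
    obtain ⟨F, hF, hlow, hup⟩ := hmain hd hgen
    refine (hF.smul (one_div_nonneg.2 h0.le)).embeds (fun x y => ?_) (fun x y => ?_)
    · have h1 := mul_le_mul_of_nonneg_left (hlow x y) (one_div_nonneg.2 h0.le)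
      rw [← mul_assoc, one_div_mul_cancel h0.ne', one_mul] at h1
      exact h1
    · exact mul_le_mul_of_nonneg_left (hup x y) (one_div_nonneg.2 h0.le)
  · have e : 1 / (c / (12000 * (3 * C))) = 36000 * C * (D + K * C * L) := by
      rw [hcc]
      field_simp
      ring
    rw [e]
    have h1 : 0 ≤ K * C := by positivity
    have h2 : D + K * C * L ≤ 2 * K * (D + C * Real.log ((t : ℝ) + 2)) := by
      have h3 := mul_le_mul_of_nonneg_left hlog h1
      have h4 : D ≤ 2 * K * D := by nlinarith
      linarith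
    have h5 := mul_le_mul_of_nonneg_left h2 (by positivity : 0 ≤ 36000 * C)
    linarith

/-- `j` rounds over the class `P`: all operations of `AllOps`, and edge sums along edges which in
every piece are covered by at most `w` vertices -/
def Rounds (P : ∀ (V : Type), SimpleGraph V → Prop) (w : ℕ) : ℕ → ∀ (V : Type), SimpleGraph V → Prop
  | 0 => P
  | j + 1 => fun V G => AllOps (Rounds P w j) w w G ∨
      ∃ E : SimpleGraph V, MSum (fun V G E => Rounds P w j V G ∧ Covered w E) G E

theorem rounds_bounded (C0 : ℝ) (w j : ℕ) : ∃ K : ℝ, ∀ P : ∀ (V : Type), SimpleGraph V → Prop,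
    (∀ (V : Type) [Finite V] (G : SimpleGraph V), G.Connected → P V G → DistortionLE G C0) →
    ∀ (V : Type) [Finite V] (G : SimpleGraph V), G.Connected → Rounds P w j V G →
      DistortionLE G K := by
  obtain ⟨A, hA, hS⟩ := star_all
  induction j with
  | zero => exact ⟨C0, fun P hP V _ G hc hG => hP V G hc hG⟩
  | succ j ih =>
    obtain ⟨K, hK⟩ := ih
    obtain ⟨K1, hK1⟩ := ST.H690.allOps_bounded K w w
    refine ⟨max K1 (A * (max K 1) * (1 + max K 1 * Real.log ((w : ℝ) + 2))),
      fun P hP V _ G hc hG => ?_⟩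
    rcases hG with hG | ⟨E, hE⟩
    · exact (hK1 _ (fun V _ G hc hG => hK P hP V G hc hG) V G hc hG).mono (le_max_left _ _)
    · refine (hS (Rounds P w j) (fun _ _ => False) (max K 1) 1 w (le_max_right _ _) le_rfl
        (fun V _ G hc hG => (hK P hP V G hc hG).mono (le_max_left _ _))
        (fun V _ G hc hG => hG.elim) V G E hc ?_).mono (le_max_right _ _)
      have hmono : ∀ {V : Type} {G E : SimpleGraph V},
          MSum (fun V G E => Rounds P w j V G ∧ Covered w E) G E →
          MSum (fun V G E => (Rounds P w j V G ∧ Covered w E) ∨ False) G E := by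
        intro V G E h
        induction h with
        | base h1 h2 => exact MSum.base h1 (Or.inl h2)
        | del _ h1 h2 h3 ih => exact MSum.del ih h1 h2 h3
        | glue h1 h2 h3 h4 h5 _ _ ih1 ih2 => exact MSum.glue h1 h2 h3 h4 h5 ih1 ih2
      exact hmono hE

end Vale.Agent.P235.H141.Star
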