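import Vale.Agent.P235.H105.Sum

/-!
# P235: edge sums over marked edges
-/

set_option autoImplicit false

namespace Vale.Agent.P235.H141.Star

open Vale.Agent.P235

/-- Edge sums with marked edges (gluing along marked edges only; then edges and marks may be
deleted). -/
inductive MSum (P : ∀ (V : Type), SimpleGraph V → SimpleGraph V → Prop) :
    ∀ {V : Type}, SimpleGraph V → SimpleGraph V → Prop
  | base {V : Type} {G E : SimpleGraph V} : E ≤ G → P V G E → MSum P G E
  | del {V : Type} {G G' E E' : SimpleGraph V} :
      MSum P G E → G' ≤ G → E' ≤ E → E' ≤ G' → MSum P G' E'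
  | glue {V : Type} {G E : SimpleGraph V} {A B : Set V} {s t : V} :
      E ≤ G → E.Adj s t → A ∪ B = Set.univ → A ∩ B = {s, t} →
      (∀ a b, a ∉ B → b ∉ A → ¬ G.Adj a b) →
      MSum P (G.induce A) (E.induce A) → MSum P (G.induce B) (E.induce B) → MSum P G E

end Vale.Agent.P235.H141.Star
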